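import Vale.Agent.P352X.R.POLY.Alg

/-!
# P352Z, row POLY: the algebraic half (helper20)
-/

set_option linter.all false

namespace Vale.Agent.P352X.ZZ.Poz

open Vale.Agent.P352 Vale.Agent.P352.GF Vale.Agent.P352.BW MvPolynomial
open Vale.Agent.P352X.Poly.AlgP

noncomputable section

/-- covariant tensor functions on the cone that are rational with denominators `p_a ^ M` -/
structure Pre (N : ℕ) (d : ℤ) (F : Ix → Ix → (Fin N → Ix) → V → ℂ) : Prop where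
  cov : ∀ r s μ t L p, 0 < t → IsLor L → p ∈ Fc → F r s μ (sim t L 0 p) = ((t ^ d : ℝ) : ℂ) *
    ∑ k, ∑ l, ∑ ν : Fin N → Ix, ((L k r * L l s * ∏ i, L (ν i) (μ i) : ℝ) : ℂ) * F k l ν p
  pol : ∃ (M : ℕ) (A : (Fin N → Ix) → MvPolynomial Ix ℂ)
    (Q : Ix → Ix → (Fin N → Ix) → MvPolynomial Ix ℂ), ∀ r s μ p, p ∈ Fc →
      (be p : ℂ) ^ M * F r s μ p =
        (p r : ℂ) * p s * evp (A μ) p + (mu p : ℂ) * evp (Q r s μ) p

/-- such functions are polynomials -/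
theorem alg {N : ℕ} {d : ℤ} {F : Ix → Ix → (Fin N → Ix) → V → ℂ} (hF : Pre N d F) :
    ∃ π : Ix → Ix → (Fin N → Ix) → MvPolynomial Ix ℂ,
    (∀ r s μ p, p ∈ Fc → evp (π r s μ) p = F r s μ p) ∧
    (∀ r s μ, (π r s μ).IsHomogeneous d.toNat ∧ (d < 0 → π r s μ = 0)) ∧
    (∀ r s k μ, mup ∣ π r s μ * MvPolynomial.X k - π k s μ * MvPolynomial.X r) ∧
    (∀ r s k μ, mup ∣ π r s μ * MvPolynomial.X k - π r k μ * MvPolynomial.X s) ∧
    ∀ r s μ L p, IsLor L → evp (π r s μ) (sim 1 L 0 p) = ∑ k, ∑ l, ∑ ν : Fin N → Ix,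
      ((L k r * L l s * ∏ i, L (ν i) (μ i) : ℝ) : ℂ) * evp (π k l ν) p := by
  obtain ⟨cov, M, A, Q, pol⟩ := hF
  set P : Ix → Ix → (Fin N → Ix) → Q4 := fun r s μ => X r * X s * A μ + mup * Q r s μ with hP
  have h1 : ∀ r s μ, ∀ p ∈ Fc, evp (P r s μ) p = (be p : ℂ) ^ M * F r s μ p := fun r s μ p hp => by
    rw [pol r s μ p hp, ← evp_mup]
    simp [hP, evp]
  have h2 : ∀ r s μ, bp ^ M ∣ P r s μ := fun r s μ => by
    refine prime_bp.pow_dvd_of_dvd_mul_left M (bp_ap M) ⟨∑ k, ∑ l, ∑ ν : Fin N → Ix,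
      C ((rot k r * rot l s * ∏ i, rot (ν i) (μ i) : ℝ) : ℂ) * sub rot (P k l ν),
      ext_Fc fun p hp => ?_⟩
    have a := cov r s μ 1 rot _ one_pos rot_lor (Fc_lor rot_lor hp)
    rw [rot_rot, one_zpow, Complex.ofReal_one, one_mul] at a
    simp only [evp, map_mul, map_pow, map_sum, eval_C]
    simp only [← evp.eq_1, evp_sub, h1 _ _ _ _ hp, h1 _ _ _ _ (Fc_lor rot_lor hp), be_rot, evp_bp, a,
      Finset.mul_sum]
    refine Finset.sum_congr rfl fun k _ => Finset.sum_congr rfl fun l _ =>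
      Finset.sum_congr rfl fun ν _ => by ring
  choose π hπ using h2
  have h3 : ∀ r s μ, ∀ p ∈ Fc, evp (π r s μ) p = F r s μ p := fun r s μ p hp => by
    have := h1 r s μ p hp
    rw [hπ, evp, map_mul, map_pow, ← evp, evp_bp] at this
    exact mul_left_cancel₀ (pow_ne_zero M (Complex.ofReal_ne_zero.2 ((mem_Fc p).1 hp).1.ne')) this
  have h4 : ∀ {u w : Q4}, mup * u = bp ^ M * w → mup ∣ w := fun {u w} e => by
    obtain ⟨z, hz⟩ := prime_bp.pow_dvd_of_dvd_mul_left M bp_mup ⟨_, e⟩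
    rw [hz, mul_left_comm] at e
    exact ⟨z, (mul_left_cancel₀ (pow_ne_zero M prime_bp.ne_zero) e).symm⟩
  refine ⟨π, h3, fun r s μ => hom_of fun p hp => ?_,
    fun r s k μ => h4 (u := Q r s μ * X k - Q k s μ * X r) ?_,
    fun r s k μ => h4 (u := Q r s μ * X k - Q r k μ * X s) ?_, fun r s μ L p hL => ?_⟩
  · have a := cov r s μ 2 GF.one p two_pos H496.isLor_one hp
    have b : sim 2 GF.one 0 p = (2 : ℝ) • p := by
      funext n
      simp [sim, GF.one, bas]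
    rw [sum_one (fun k l ν => F k l ν p), b] at a
    rw [h3 _ _ _ _ ((Fc_smul two_pos).2 hp), h3 _ _ _ _ hp, a]
  · rw [mul_sub (bp ^ M), ← mul_assoc, ← mul_assoc, ← hπ, ← hπ]
    simp only [hP]
    ring
  · rw [mul_sub (bp ^ M), ← mul_assoc, ← mul_assoc, ← hπ, ← hπ]
    simp only [hP]
    ring
  · have e : sub L (π r s μ) = ∑ k, ∑ l, ∑ ν : Fin N → Ix,
        C ((L k r * L l s * ∏ i, L (ν i) (μ i) : ℝ) : ℂ) * π k l ν := ext_Fc fun p hp => by
      rw [evp_sub, h3 _ _ _ _ (Fc_lor hL hp), cov r s μ 1 L p one_pos hL hp, one_zpow,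
        Complex.ofReal_one, one_mul]
      simp only [evp, map_mul, map_sum, eval_C]
      simp only [← evp.eq_1, h3 _ _ _ _ hp]
    rw [← evp_sub, e]
    simp only [evp, map_mul, map_sum, eval_C]

end

end Vale.Agent.P352X.ZZ.Poz
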