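import Vale.Agent.P352X.R.POLY
import Vale.Agent.P352Z.R.TWO.St

/-!
# P352Z (port of P352X), row POLY: the densities of overlaps (helper20, after helper21, helper76, helper80)
-/

set_option linter.all false

open MeasureTheory Measure Set Filter Topology
open scoped SchwartzMap ComplexConjugate NNReal ENNReal

namespace Vale.Agent.P352X.ZZ.Poly

open Vale.Agent.P352.GF Vale.Agent.P352.BW Vale.Agent.P352.H496 Vale.Agent.P352.H755
open UniformSpace (Completion)
open Vale.Agent.P352X.ZZ.Two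
open Vale.Agent.P352X.Two (sy fr du cf xw yw g0 gS Wt Ad Cp cfs dn wt_g0 g0_ne g0_in bd_ft ae_fc
  cp_ind thi_mem)
open Vale.Agent.P352X.Poly (nU cm FF cp_int van cont_gg gg_ne cp_cj rc cont_rc rc_pos rc_le int_q
  rL isLor_rL rL_rL md_rL meas_rL sg fr_rL prod_sg)

noncomputable section

variable {D : Type*} [NormedAddCommGroup D] [InnerProductSpace ℂ D] (c : Ctx D)

/-- `|ft g0| ^ 2 F` is the density of the overlap of `v` and `w` in the open cone -/
def Den (v w : Completion D) (F : V → ℂ) : Prop := ∀ G, Cp Fc G →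
  inner ℂ v (c.bt.Phi G w) = ∫ p in Fc, G p * (conj (ft g0 p) * ft g0 p * F p)

/-- the part orthogonal to the vacuum -/
def pO (O : Sch →L[ℂ] Completion D) : Sch →L[ℂ] Completion D :=
  O - (innerSL ℂ c.Om ∘L O).smulRight c.Om

/-- uniqueness of continuous densities -/
def UNI : Prop := ∀ v w F F', Den c v w F → Den c v w F' → ContinuousOn F Fc →
  ContinuousOn F' Fc → ∀ p ∈ Fc, F p = F' p

/-- covariance of the densities -/
def COV : Prop := ∀ (k l : ℕ) (d d' : ℝ) (Λ : (Fin k → Ix) → Sch →L[ℂ] Completion D)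
  (Λ' : (Fin l → Ix) → Sch →L[ℂ] Completion D) (F : (Fin k → Ix) → (Fin l → Ix) → V → ℂ),
  Mu c d Λ → Mu c d' Λ' → (∀ J μ, Den c (Λ J gS) (Λ' μ gS) (F J μ)) →
  (∀ J μ, ContinuousOn (F J μ) Fc) → ∀ J μ t L p, 0 < t → IsLor L → p ∈ Fc →
    F J μ (sim t L 0 p) = ((t ^ (d + d' - 4) : ℝ) : ℂ) * ∑ J' : Fin k → Ix, ∑ ν : Fin l → Ix,
      (((∏ i, L (J' i) (J i)) * ∏ i, L (ν i) (μ i) : ℝ) : ℂ) * F J' ν p

/-- conservation of the densities -/
def CON : Prop := ∀ (v : Ix → Completion D) w (F : Ix → V → ℂ),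
  (∀ G, Cp Fc G → ∑ m, c.bt.Phi (fun p => G p * (eta m * p m : ℝ)) (v m) = 0) →
  (∀ m, Den c (v m) w (F m)) → (∀ m, ContinuousOn (F m) Fc) →
  ∀ p ∈ Fc, ∑ m, ((eta m * p m : ℝ) : ℂ) * F m p = 0

/-- the parity rule -/
def PAR : Prop := ∀ (k l : ℕ) (d d' : ℝ) (Λ : (Fin k → Ix) → Sch →L[ℂ] Completion D)
  (Λ' : (Fin l → Ix) → Sch →L[ℂ] Completion D) K A C (κ : ℂ) (a b : ℝ), Mu c d Λ → Mu c d' Λ' →
  Ad k K → Ad l K → IntegrableOn (fun p => κ * dn (fun p => K p * ft g0 p) a b p) Fc →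
  (∀ G, SN.Bd G → inner ℂ (Zf c Λ K A) (c.bt.Phi G (Zf c Λ' K C)) =
    ∫ p in Fc, G p * (κ * dn (fun p => K p * ft g0 p) a b p)) → κ ≠ 0 → Even (nU A + nU C)

/-- from the reference function to all test functions -/
def EXT : Prop := ∀ (k l : ℕ) (d d' : ℝ) (Λ : (Fin k → Ix) → Sch →L[ℂ] Completion D)
  (Λ' : (Fin l → Ix) → Sch →L[ℂ] Completion D) J μ (q : MvPolynomial Ix ℂ), Mu c d Λ →
  Mu c d' Λ' → (∀ᵐ p ∂c.nu (Λ J gS), p ∈ Fc) → Den c (Λ J gS) (Λ' μ gS) (evp q) →
  ∀ f' f : Sch, inner ℂ (Λ J f') (Λ' μ f) =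
    ∫ p in Fc, evp q p * (conj (ft (ev f') p) * ft (ev f) p)

/-- removal of the vacuum -/
def RED : Prop := ∀ (k : ℕ) (d : ℝ) (O : (Fin k → Ix) → Sch →L[ℂ] Completion D),
  CovM c.Q k d O → Mu c d (fun μ => pO c (O μ)) ∧
    ∀ μ f v, inner ℂ c.Om v = 0 → inner ℂ v (pO c (O μ) f) = inner ℂ v (O μ f)

theorem uni : UNI c := fun v w F F' h h' a a' p hp => by
  have b : ContinuousOn (fun p => conj (ft g0 p) * ft g0 p * F p) Fc := cont_gg.continuousOn.mul a
  have b' : ContinuousOn (fun p => conj (ft g0 p) * ft g0 p * F' p) Fc :=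
    cont_gg.continuousOn.mul a'
  have := van (H := fun p => conj (ft g0 p) * ft g0 p * F p - conj (ft g0 p) * ft g0 p * F' p)
    (b.sub b') (fun G hG => by
    simp only [mul_sub]
    rw [integral_sub (cp_int hG b) (cp_int hG b'), ← h G hG, ← h' G hG, sub_self]) p hp
  exact mul_left_cancel₀ (gg_ne p) (sub_eq_zero.1 this)

theorem con : CON c := fun v w F h0 h a p hp => by
  have e : ∀ m, Continuous fun p : V => ((eta m * p m : ℝ) : ℂ) := fun m => by fun_prop
  have b : ∀ m, ContinuousOn (fun p => conj (ft g0 p) * ft g0 p * F m p) Fc :=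
    fun m => cont_gg.continuousOn.mul (a m)
  have := van (H := fun p => ∑ m, ((eta m * p m : ℝ) : ℂ) * (conj (ft g0 p) * ft g0 p * F m p))
    (continuousOn_finset_sum _ fun m _ => (e m).continuousOn.mul (b m))
    (fun G hG => by
      have k : ∀ m, Cp Fc fun p => G p * ((eta m * p m : ℝ) : ℂ) :=
        fun m => hG.mul (e m).measurable (e m).continuousOn
      simp only [Finset.mul_sum, fun p m x => (mul_assoc (G p) ((eta m * p m : ℝ) : ℂ) x).symm]
      rw [integral_finset_sum _ fun m _ => cp_int (k m) (b m)]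
      simp only [← h _ _ (k _), c.bt.adj' (k _).1, map_mul, Complex.conj_ofReal, ← sum_inner,
        h0 _ (cp_cj hG), inner_zero_left]) p hp
  refine mul_left_cancel₀ (gg_ne p) ?_
  rw [mul_zero, ← this, Finset.mul_sum]
  exact Finset.sum_congr rfl fun m _ => mul_left_comm _ _ _

theorem cov : COV c := fun k l d d' Λ Λ' F h h' hF hc J μ t L p ht hL hp => by
  have hs := inv_pos.2 ht
  have hk := Kin.du_meas t⁻¹ L
  have hA := Kin.du_pair t⁻¹ hL
  have h1 : ∀ p, Kin.du t⁻¹ L (sim t L 0 p) = p := fun p => by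
    rw [Kin.du, sim_smul (s := t), (conf_lor (P352.H246.isLor_linv hL)).lin.map_smul, linv_sim _ hL,
      inv_smul_smul₀ ht.ne']
  have h2 : ∀ p, sim t L 0 (Kin.du t⁻¹ L p) = p := fun p => by
    obtain ⟨q, rfl⟩ := (conf_sim ht hL).cle.surjective p
    rw [Conf.cle_apply, h1]
  have cs := (conf_sim ht hL).cont
  have ms : MapsTo (sim t L 0) Fc Fc := fun q hq => (Fc_sim ht hL q).2 hq
  have b := wt_g0.bd
  set a : (Fin k → Ix) → (Fin l → Ix) → ℂ := fun J' ν =>
    ((t⁻¹ ^ (-d) * ∏ i, L (J' i) (J i) : ℝ) : ℂ) * ((t⁻¹ ^ (-d') * ∏ i, L (ν i) (μ i) : ℝ) : ℂ)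
  have g2 : Continuous fun p => conj (ft g0 (sim t L 0 p)) * ft g0 (sim t L 0 p) :=
    cont_gg.comp cs
  have g1 := g2.continuousOn (s := Fc)
  have c1 : ContinuousOn (fun p => t ^ 4 • (conj (ft g0 p) * ft g0 p * (conj (ft g0 (sim t L 0 p)) *
      ft g0 (sim t L 0 p) * F J μ (sim t L 0 p)))) Fc :=
    (cont_gg.continuousOn.mul (g1.mul ((hc J μ).comp cs.continuousOn ms))).const_smul (t ^ 4)
  have c2 : ∀ J' ν, ContinuousOn (fun p => conj (ft g0 p) * ft g0 p * F J' ν p) Fc :=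
    fun J' ν => cont_gg.continuousOn.mul (hc J' ν)
  have c3 : ContinuousOn (fun p => conj (ft g0 (sim t L 0 p)) * ft g0 (sim t L 0 p) *
      ∑ J', ∑ ν, a J' ν * (conj (ft g0 p) * ft g0 p * F J' ν p)) Fc :=
    g1.mul (continuousOn_finset_sum Finset.univ fun J' _ =>
      continuousOn_finset_sum Finset.univ fun ν _ => (continuousOn_const (c := a J' ν)).mul
        (c2 J' ν))
  have := van (c1.fun_sub c3) (fun G hG => ?_) p hp
  · simp only [sub_eq_zero, Complex.real_smul] at this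
    refine mul_left_cancel₀ (mul_ne_zero (Complex.ofReal_ne_zero.2 (pow_pos ht 4).ne')
      (mul_ne_zero (gg_ne p) (gg_ne (sim t L 0 p)))) ?_
    rw [mul_assoc, mul_assoc _ _ (F _ _ _), this]
    simp only [Finset.mul_sum]
    refine Finset.sum_congr rfl fun J' _ => Finset.sum_congr rfl fun ν _ => ?_
    have e : t⁻¹ ^ (-d) * t⁻¹ ^ (-d') = t ^ 4 * t ^ (d + d' - 4) := by
      rw [Real.inv_rpow ht.le, Real.inv_rpow ht.le, Real.rpow_neg ht.le, Real.rpow_neg ht.le,
        inv_inv, inv_inv, ← Real.rpow_add ht, ← Real.rpow_natCast, ← Real.rpow_add ht]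
      congr 1
      push_cast
      ring
    have e' := congrArg (fun x : ℝ => (x : ℂ)) e
    simp only [a]
    push_cast at e' ⊢
    linear_combination (conj (ft g0 (sim t L 0 p)) * ft g0 (sim t L 0 p) *
      (conj (ft g0 p) * ft g0 p) * F J' ν p * (∏ i, (L (J' i) (J i) : ℂ)) *
        ∏ i, (L (ν i) (μ i) : ℂ)) * e'
  · have k1 : Cp Fc fun q => G (Kin.du t⁻¹ L q) := ⟨hG.1.comp hk, hG.2.elim fun B hB =>
      ⟨_, hB.1.image cs, image_subset_iff.2 fun q hq => ms (hB.2.1 hq), fun q hq =>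
        hB.2.2 _ fun e => hq ⟨_, e, h2 q⟩⟩⟩
    have k2 : Cp Fc fun q => G (Kin.du t⁻¹ L q) *
        (conj (ft g0 (Kin.du t⁻¹ L q)) * ft g0 (Kin.du t⁻¹ L q)) :=
      k1.mul (cont_gg.measurable.comp hk) (cont_gg.comp (Kin.du_cont _ _)).continuousOn
    have k3 : Cp Fc fun p => G p * (conj (ft g0 (sim t L 0 p)) * ft g0 (sim t L 0 p)) :=
      hG.mul g2.measurable g1
    have A1 := hF J μ _ k2
    have A2 : inner ℂ (Λ J gS) (c.bt.Phi (fun q => G (Kin.du t⁻¹ L q) *
        (conj (ft g0 (Kin.du t⁻¹ L q)) * ft g0 (Kin.du t⁻¹ L q))) (Λ' μ gS)) =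
        ∑ J', ∑ ν, a J' ν * inner ℂ (Λ J' gS) (c.bt.Phi (fun p => G p *
          (conj (ft g0 (sim t L 0 p)) * ft g0 (sim t L 0 p))) (Λ' ν gS)) := by
      simp only [mul_left_comm (G (Kin.du t⁻¹ L _))]
      rw [c.bt.mul_apply (b.comp hk).cj (k1.1.mul (b.comp hk)), ← c.bt.adj (b.comp hk),
        c.bt.mul_apply k1.1 (b.comp hk), h.key hs hL hk hA h1 h2, h'.key hs hL hk hA h1 h2]
      simp only [_root_.map_sum, map_smul, sum_inner, inner_sum, inner_smul_left, inner_smul_right,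
        Complex.conj_ofReal, Finset.mul_sum]
      rw [Finset.sum_comm]
      refine Finset.sum_congr rfl fun J' _ => Finset.sum_congr rfl fun ν _ => ?_
      rw [← inner_unitary (Grp.uni c.bR t⁻¹ L 0) (Λ J' gS), Phi_W hk (ug_ut hs hL) hA k3.1,
        c.bt.adj b, ← c.bt.mul_apply k1.1 b, ← c.bt.mul_apply b.cj (k1.1.mul b)]
      simp only [h2, a, mul_left_comm (G (Kin.du t⁻¹ L _))]
      ring
    rw [A2, (scF_sim ht hL).integral', inv_inv] at A1
    simp only [h1, hF _ _ _ k3] at A1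
    simp only [mul_sub]
    have i2 : ∀ J' ν, IntegrableOn (fun p => a J' ν * (G p * (conj (ft g0 (sim t L 0 p)) *
        ft g0 (sim t L 0 p)) * (conj (ft g0 p) * ft g0 p * F J' ν p))) Fc :=
      fun J' ν => (cp_int k3 (c2 J' ν)).const_mul _
    rw [integral_sub (cp_int hG c1) (cp_int hG c3), sub_eq_zero]
    simp only [← integral_const_mul, ← integral_smul] at A1
    simp only [← integral_finset_sum _ fun ν _ => i2 _ ν] at A1
    rw [← integral_finset_sum _ fun J' _ => integrable_finset_sum _ fun ν _ => i2 J' ν] at A1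
    refine (integral_congr_ae (.of_forall fun q => ?_)).trans
      (A1.symm.trans (integral_congr_ae (.of_forall fun q => ?_)))
    · simp only [Complex.real_smul]
      ring
    · simp only [Finset.mul_sum]
      exact Finset.sum_congr rfl fun _ _ => Finset.sum_congr rfl fun _ _ => by ring


variable {c}

/-- from compactly supported functions to bounded functions -/
lemma all_bd {v w : Completion D} {F : V → ℂ} (hF : IntegrableOn F Fc)
    (h : ∀ G, Cp Fc G → inner ℂ v (c.bt.Phi G w) = ∫ p in Fc, G p * F p)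
    (h1 : ∀ᵐ p ∂c.nu v, p ∈ Fc) {G : V → ℂ} (hG : SN.Bd G) :
    inner ℂ v (c.bt.Phi G w) = ∫ p in Fc, G p * F p := by
  obtain ⟨C, hC0, hC⟩ := hG.nonneg_bound
  let A : ℕ → Set V := fun n => {p | 1 / ((n : ℝ) + 1) ≤ rc p}
  have hc : ∀ n, IsCompact (A n) := fun n => Metric.isCompact_of_isClosed_isBounded
    (isClosed_le continuous_const cont_rc) ((Metric.isBounded_closedBall (x := 0) (r := n)).subset
      fun p hp => mem_closedBall_zero_iff.2 (by
        have := (inv_le_inv₀ (by positivity) (by positivity)).1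
          (((one_div _).symm.trans_le hp).trans (rc_le p))
        linarith))
  have hA := fun n => (hc n).measurableSet
  have e : ∀ n, inner ℂ (c.bt.Phi (fun p => conj ((A n).indicator G p)) v) w =
      ∫ p in Fc, (A n).indicator G p * F p := fun n => by
    rw [← h _ (cp_ind (hc n) (fun p hp => rc_pos.1 (lt_of_lt_of_le Nat.one_div_pos_of_nat hp)) hG),
      c.bt.adj' (hG.indicator (hA n))]
  have lim : ∀ p ∈ Fc, Tendsto (fun n => (A n).indicator G p) atTop (𝓝 (G p)) := fun p hp =>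
    tendsto_const_nhds.congr' (((tendsto_one_div_add_atTop_nhds_zero_nat (𝕜 := ℝ)).eventually
      (eventually_le_nhds (rc_pos.2 hp))).mono fun n hn =>
        (indicator_of_mem (show p ∈ A n from hn) G).symm)
  have bd : ∀ n p, ‖(A n).indicator G p‖ ≤ C := fun n p =>
    (norm_indicator_le_norm_self _ _).trans (hC p)
  have t1 := (c.bt.tendsto_Phi (fun n => (hG.indicator (hA n)).cj) hG.cj (K := C) (v := v)
    (.of_forall fun n => .of_forall fun p => by simpa using bd n p)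
    (h1.mono fun p hp => (Complex.continuous_conj.tendsto _).comp (lim p hp))).inner
    (𝕜 := ℂ) (tendsto_const_nhds (x := w))
  have t2 := tendsto_integral_of_dominated_convergence (μ := volume.restrict Fc)
    (F := fun n p => (A n).indicator G p * F p) (f := fun p => G p * F p) (fun p => C * ‖F p‖)
    (fun n => (hG.indicator (hA n)).1.aestronglyMeasurable.mul hF.1) (hF.norm.const_mul C)
    (fun n => .of_forall fun p => by rw [norm_mul]; gcongr; exact bd n p)
    ((ae_fc _).mono fun p hp => (lim p hp).mul_const _)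
  rw [c.bt.adj' hG]
  exact tendsto_nhds_unique t1 (by simpa only [e] using t2)

theorem ext (c : Ctx D) : EXT c := fun k l d d' Λ Λ' J μ q h h' h1 e f' f => by
  have := transfer (H := evp q) wt_g0.bd g0_ne (bd_ft ⟨f', rfl⟩) (bd_ft ⟨f, rfl⟩) (h.rel J f')
    (h'.rel μ f) (fun G hG => all_bd ((int_q q g0_in.1 g0_in.1).congr
      (.of_forall fun p => mul_comm _ _)) e h1 hG) (int_q q ⟨f', rfl⟩ ⟨f, rfl⟩) (.const 1)
  simpa only [c.bt.one, one_mul, ContinuousLinearMap.one_apply] using this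

lemma pO_apply (O : Sch →L[ℂ] Completion D) (f : Sch) :
    pO c O f = O f - inner ℂ c.Om (O f) • c.Om := rfl

theorem red (c : Ctx D) : RED c := fun k d O h => by
  refine ⟨fun μ s L a f g hs hL e => ?_, fun μ f v hv => ?_⟩
  · obtain ⟨κ, e⟩ := h.cov μ s L a f g hs hL e
    have h1 : inner ℂ c.Om c.Om = 1 := Kin.inner_om
    have h2 : ∀ v, inner ℂ c.Om (Ug c.Q s L a v) = inner ℂ c.Om v := fun v => by
      rw [Ug_apply _ hs hL]
      exact Kin.inner_om_U c.bR hs hL a v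
    simp only [← Ug_apply _ hs hL] at e
    simp only [pO_apply, e, map_sub, map_smul, Grp.vac c.bR, inner_add_right, inner_sum,
      inner_smul_right, h2, smul_sub, Finset.sum_sub_distrib, add_smul, Finset.sum_smul, smul_smul]
    rw [show inner ℂ c.Om (om c.Q) = 1 from h1, mul_one]
    exact add_sub_add_right_eq_sub _ _ _
  · rw [pO_apply, inner_sub_right, inner_smul_right, inner_eq_zero_symm.1 hv, mul_zero, sub_zero]

lemma zf_rL {k : ℕ} {d : ℝ} {Λ : (Fin k → Ix) → Sch →L[ℂ] Completion D} {K : V → ℂ}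
    (h : Mu c d Λ) (hK : Ad k K) (A : Fin k → Fin 4) :
    c.bt.Phi (fun p => K (sim 1 rL 0 p) * ft g0 (sim 1 rL 0 p)) (Zf c Λ K A) = ((-1) ^ nU A : ℂ) •
      Ug c.Q 1 rL 0 (c.bt.Phi (fun p => K (sim 1 rL 0 p) * ft g0 (sim 1 rL 0 p)) (Zf c Λ K A)) := by
  have := h.zs_cov one_pos isLor_rL meas_rL md_rL rL_rL rL_rL (u := fun j => fr (A j))
    (t := fun j => sg (A j)) (fun j p => fr_rL (A j) p) hK.wt.bd (hK.ok A)
  rw [Phi_W meas_rL (ug_ut one_pos isLor_rL) md_rL ((hK.wt.bd.mul wt_g0.bd).comp meas_rL)]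
  simp only [rL_rL]
  rw [Two.Zf, this, prod_sg]
  simp

/-- **the parity rule** -/
theorem par (c : Ctx D) : PAR c := by
  intro k l d d' Λ Λ' K A C κ a b h h' hK hK' hi e hκ
  have b1 : SN.Bd fun p => K (sim 1 rL 0 p) * ft g0 (sim 1 rL 0 p) :=
    (hK.wt.bd.mul wt_g0.bd).comp meas_rL
  set F : V → ℂ := fun p => K (sim 1 rL 0 p) * ft g0 (sim 1 rL 0 p) with hF
  have n1 : ∀ p, F p ≠ 0 := fun p => mul_ne_zero (hK.wt.ne _) (g0_ne _)
  have e1 : inner ℂ (c.bt.Phi F (Zf c Λ K A)) (c.bt.Phi F (Zf c Λ' K C)) =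
      (-1) ^ (nU A + nU C) * inner ℂ (c.bt.Phi F (Zf c Λ K A)) (c.bt.Phi F (Zf c Λ' K C)) := by
    conv_lhs => rw [hF, zf_rL h hK A, zf_rL h' hK' C]
    rw [inner_smul_left, inner_smul_right, inner_unitary (Grp.uni c.bR _ _ _), pow_add]
    simp [mul_assoc, hF]
  have e2 : inner ℂ (c.bt.Phi F (Zf c Λ K A)) (c.bt.Phi F (Zf c Λ' K C)) =
      κ * ((∫ p in Fc, ‖F p‖ ^ 2 * dn (fun p => K p * ft g0 p) a b p : ℝ) : ℂ) := by
    rw [c.bt.adj b1, ← c.bt.mul_apply b1.cj b1, e _ (b1.cj.mul b1), ← integral_complex_ofReal,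
      ← integral_const_mul]
    refine integral_congr_ae (.of_forall fun p => ?_)
    simp only [SN.conj_mul_self]
    push_cast
    ring
  have i1 : IntegrableOn (dn (fun p => K p * ft g0 p) a b) Fc := by
    have := (hi.const_mul κ⁻¹).re
    simpa [← mul_assoc, hκ, IntegrableOn] using this
  have i2 : IntegrableOn (fun p => ‖F p‖ ^ 2 * dn (fun p => K p * ft g0 p) a b p) Fc := by
    obtain ⟨M, -, hM⟩ := b1.nonneg_bound
    exact i1.bdd_mul (c := M ^ 2) (b1.1.norm.pow_const 2).aestronglyMeasurable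
      (.of_forall fun p => by
        rw [Real.norm_of_nonneg (sq_nonneg _)]
        exact pow_le_pow_left₀ (norm_nonneg _) (hM p) 2)
  have pos : ∀ p ∈ Fc, 0 < ‖F p‖ ^ 2 * dn (fun p => K p * ft g0 p) a b p := fun p hp => by
    obtain ⟨h1, h2⟩ := (mem_Fc p).1 hp
    have := norm_pos_iff.2 (n1 p)
    have := norm_pos_iff.2 (mul_ne_zero (hK.wt.ne p) (g0_ne p))
    unfold dn
    positivity
  have n2 : (∫ p in Fc, ‖F p‖ ^ 2 * dn (fun p => K p * ft g0 p) a b p) ≠ 0 := fun hz => by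
    have := (integral_eq_zero_iff_of_nonneg_ae ((ae_fc _).mono fun p hp => (pos p hp).le) i2).1 hz
    have h0 : ∀ᵐ p ∂(volume : Measure V).restrict Fc, False := by
      filter_upwards [this, ae_fc _] with p h1 h2 using (pos p h2).ne' h1
    rw [eventually_false_iff_eq_bot, ae_eq_bot, restrict_eq_zero] at h0
    exact isOpen_Fc.measure_ne_zero volume ⟨_, thi_mem 0⟩ h0
  by_contra hn
  rw [(Nat.not_even_iff_odd.1 hn).neg_one_pow, e2] at e1
  exact mul_ne_zero hκ (Complex.ofReal_ne_zero.2 n2) (by linear_combination e1 / 2)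


end

end Vale.Agent.P352X.ZZ.Poly
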