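import Vale.Agent.P352X.R.POLY.Pol
import Vale.Agent.P352Z.R.POLY.Alg

/-!
# P352Z, row POLY: the densities are rational (helper20)
-/

set_option linter.all false

namespace Vale.Agent.P352X.ZZ.Poz

open Vale.Agent.P352.GF Vale.Agent.P352.BW MvPolynomial Vale.Agent.P352X.Two
open Vale.Agent.P352X.Poly Vale.Agent.P352X.Poly.AlgP Vale.Agent.P352X.Poly.PolP

noncomputable section

/-- the selection rules -/
def Sel {l : ℕ} (d : ℝ) (κ : (Fin 2 → Fin 4) → (Fin l → Fin 4) → ℂ) : Prop := ∀ A C, κ A C ≠ 0 →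
  Even (nU A + nU C) ∧ 1 / 2 < d / 2 + ∑ j, yw (C j)

theorem expo {N : ℕ} {d : ℤ} {A : Fin 2 → Fin 4} {C : Fin N → Fin 4} (hd : Even (d - N))
    (h2 : Even (nU A + nU C)) (h3 : 1 / 2 < (d : ℝ) / 2 + ∑ j, yw (C j)) :
    ∃ n : ℕ, (d : ℝ) / 2 + ∑ j, yw (A j) + ∑ j, yw (C j) = n ∧ (n = 0 → A 0 = 0 ∧ A 1 = 0) := by
  simp only [zw_eq, ← Finset.sum_div, ← Int.cast_sum] at h3 ⊢
  have h4 : 1 < d + ∑ j, zw (C j) := by
    have : (1 : ℝ) < d + (∑ j, zw (C j) : ℤ) := by linarith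
    exact_mod_cast this
  have h5 : ∀ a, -1 ≤ zw a := by decide
  have h6 : ∀ a, zw a < 0 → a = 0 := by decide
  obtain ⟨x1, e1⟩ := hd
  obtain ⟨x2, e2⟩ := PolP.par A
  obtain ⟨x3, e3⟩ := PolP.par C
  obtain ⟨x4, e4⟩ := h2
  have a0 := h5 (A 0)
  have a1 := h5 (A 1)
  have e5 := Fin.sum_univ_two fun j => zw (A j)
  obtain ⟨n, hn⟩ : ∃ n : ℕ, d + ∑ j, zw (A j) + ∑ j, zw (C j) = 2 * n :=
    ⟨((d + ∑ j, zw (A j) + ∑ j, zw (C j)) / 2).toNat, by omega⟩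
  refine ⟨n, ?_, fun h => ⟨h6 _ (by omega), h6 _ (by omega)⟩⟩
  have : (d : ℝ) + (∑ j, zw (A j) : ℤ) + (∑ j, zw (C j) : ℤ) = 2 * n := by exact_mod_cast hn
  linarith

theorem pol2 (N : ℕ) (d : ℤ) (κ : (Fin 2 → Fin 4) → (Fin N → Fin 4) → ℂ) (hd : Even (d - N))
    (hκ : Sel d κ) : ∃ (M : ℕ) (A : (Fin N → Ix) → MvPolynomial Ix ℂ)
      (Q : Ix → Ix → (Fin N → Ix) → MvPolynomial Ix ℂ), ∀ r s μ p, p ∈ Fc →
      (be p : ℂ) ^ M * FF (d / 2) κ ![r, s] μ p =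
        (p r : ℂ) * p s * evp (A μ) p + (mu p : ℂ) * evp (Q r s μ) p := by
  choose dp hp using ex_du
  have key : ∀ (A : Fin 2 → Fin 4) (B : Fin N → Fin 4), ∃ (a : (Fin N → Ix) → Q4)
      (q : Ix → Ix → (Fin N → Ix) → Q4), ∀ r s μ, ∀ p ∈ Fc, (be p : ℂ) ^ (2 * 2 + 2 * N) * (κ A B *
      ((be p ^ (∑ j, (xw (A j) - yw (A j)) + ∑ j, (xw (B j) - yw (B j))) *
        mu p ^ ((d : ℝ) / 2 + ∑ j, yw (A j) + ∑ j, yw (B j)) *
        (cm ![r, s] A p * cm μ B p) : ℝ) : ℂ)) =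
      (p r : ℂ) * p s * evp (a μ) p + (mu p : ℂ) * evp (q r s μ) p := fun A B => by
    by_cases h0 : κ A B = 0
    · exact ⟨0, 0, fun r s μ p _ => by simp [h0, evp]⟩
    obtain ⟨a2, a3⟩ := hκ A B h0
    obtain ⟨n, hn, hn'⟩ := expo hd a2 a3
    obtain ⟨w, hw⟩ : ∃ w : (Fin N → Ix) → Q4, ∀ r s μ, ∀ p ∈ Fc,
        (be p : ℂ) ^ (2 * 2 + 2 * N) * (κ A B *
        ((be p ^ (∑ j, (xw (A j) - yw (A j)) + ∑ j, (xw (B j) - yw (B j))) *
          mu p ^ ((d : ℝ) / 2 + ∑ j, yw (A j) + ∑ j, yw (B j)) *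
          (cm ![r, s] A p * cm μ B p) : ℝ) : ℂ)) =
        (mu p : ℂ) ^ n * (du (A 0) p r : ℝ) * (du (A 1) p s : ℝ) * evp (w μ) p := by
      refine ⟨fun μ => C (κ A B) * bp ^ (∑ j, nw (A j) + ∑ j, nw (B j)) *
        ∏ j, dp (B j) (μ j), fun r s μ p h => ?_⟩
      have e1 := congrArg Complex.ofReal (cm_eq ![r, s] A h)
      have e2 := congrArg Complex.ofReal (cm_eq μ B h)
      simp only [hn, nw_eq, ← Nat.cast_sum, ← Nat.cast_add, Real.rpow_natCast, evp, map_mul,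
        map_pow, map_prod, eval_C]
      simp only [← evp.eq_1, hp, evp_bp]
      simp only [Fin.prod_univ_two, Matrix.cons_val_zero, Matrix.cons_val_one] at e1
      push_cast at e1 e2 ⊢
      rw [← e2, pow_add, pow_mul]
      linear_combination (κ A B * be p ^ (∑ j, nw (A j) + ∑ j, nw (B j)) * mu p ^ n *
        ((be p : ℂ) ^ 2) ^ N * cm μ B p) * e1
    cases n with
    | zero =>
      obtain ⟨b0, b1⟩ := hn' rfl
      refine ⟨fun μ => bp ^ 2 * w μ, fun r s μ => (mup * C (va r : ℂ) * C (va s : ℂ) -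
        bp * X r * C (va s : ℂ) - bp * X s * C (va r : ℂ)) * w μ, fun r s μ p h => ?_⟩
      rw [hw r s μ p h, b0, b1]
      simp only [evp, map_mul, map_pow, map_sub, eval_C, eval_X]
      simp only [← evp.eq_1, evp_bp, evp_mup]
      simp [du]
      ring
    | succ m =>
      refine ⟨0, fun r s μ => mup ^ m * dp (A 0) r * dp (A 1) s * w μ, fun r s μ p h => ?_⟩
      rw [hw r s μ p h]
      simp only [evp, map_mul, map_pow, Pi.zero_apply, map_zero]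
      simp only [← evp.eq_1, hp, evp_mup]
      ring
  choose a q h using key
  refine ⟨2 * 2 + 2 * N, fun μ => ∑ A, ∑ B, a A B μ, fun r s μ => ∑ A, ∑ B, q A B r s μ,
    fun r s μ p hp => ?_⟩
  simp only [FF, Finset.mul_sum, h _ _ r s μ p hp, evp, map_sum, Finset.sum_add_distrib]

end

end Vale.Agent.P352X.ZZ.Poz
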