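import Vale.Agent.P352X.R.POLY.Ex2
import Vale.Agent.P352X.R.POLY.Alg
import Vale.Agent.P352X.R.ELL.Ft

/-!
# P352Z, row POLY: uniqueness of polynomial densities (helper20)
-/

set_option linter.all false

open MeasureTheory Measure Set Filter Topology
open scoped SchwartzMap ComplexConjugate

namespace Vale.Agent.P352X.ZZ.Poz

open Vale.Agent.P352.GF Vale.Agent.P352.BW
open Vale.Agent.P352X.Poly.AlgP

noncomputable section

/-- the form with the density `q` -/
def fm (q : MvPolynomial Ix ℂ) (f' f : Fn) : ℂ := ∫ p in Fc, evp q p * (conj (ft f' p) * ft f p)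

/-- **a polynomial is determined by its form** -/
theorem pol_zero {q : MvPolynomial Ix ℂ} (h : ∀ f' f : Sch, fm q (ev f') (ev f) = 0) : q = 0 := by
  obtain ⟨F, h1, h2⟩ := Vale.Agent.P352X.El.exists_ftS
  obtain ⟨g, -, hg⟩ := Vale.Agent.P352X.Two.exists_g0
  have hc : Continuous fun p => evp q p * conj (ft (ev g) p) :=
    (Api4.temperate_evp q (ContinuousLinearMap.id ℝ V)).1.continuous.mul
      (Complex.continuous_conj.comp (Vale.Agent.P352X.Two.cont_ft ⟨g, rfl⟩))
  have := isOpen_Fc.ae_eq_zero_of_integral_contDiff_smul_eq_zero (μ := volume)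
    (hc.continuousOn.locallyIntegrableOn meas_Fc) fun u u1 u2 u3 => by
      obtain ⟨f, hf⟩ := h1 (sch (cx u))
      have e : ∀ p, ft (ev f) p = u p := fun p => by
        rw [← h2, hf, Api4.sch_apply (Api4.dc_cx ⟨u1, u2⟩), cx]
      have := h g f
      simp only [fm, e] at this
      rw [setIntegral_eq_integral_of_forall_compl_eq_zero fun p hp => by
        simp [image_eq_zero_of_notMem_tsupport fun k => hp (u3 k)]] at this
      rw [← this]
      exact integral_congr_ae (.of_forall fun p => by simp only [Complex.real_smul]; ring)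
  have z := Measure.eqOn_open_of_ae_eq (μ := volume) ((ae_restrict_iff' meas_Fc).2 this) isOpen_Fc
    hc.continuousOn continuousOn_const
  refine ext_Fc fun p hp => ?_
  rw [show evp 0 p = 0 by simp [evp]]
  exact (mul_eq_zero.1 (z hp)).resolve_right (by simpa using hg p)

lemma fm_sum {ι : Type*} (s : Finset ι) (q : ι → MvPolynomial Ix ℂ) {f' f : Fn} (h' : IsTest f')
    (h : IsTest f) : fm (∑ i ∈ s, q i) f' f = ∑ i ∈ s, fm (q i) f' f := by
  simp only [fm]
  rw [← integral_finsetSum _ fun i _ => Vale.Agent.P352X.Poly.int_q (q i) h' h]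
  simp only [evp, _root_.map_sum, Finset.sum_mul]

lemma fm_add (q r : MvPolynomial Ix ℂ) {f' f : Fn} (h' : IsTest f') (h : IsTest f) :
    fm (q + r) f' f = fm q f' f + fm r f' f := by
  simp only [fm]
  rw [← integral_add (Vale.Agent.P352X.Poly.int_q q h' h) (Vale.Agent.P352X.Poly.int_q r h' h)]
  simp only [evp, map_add, add_mul]

lemma fm_C (a : ℂ) (q : MvPolynomial Ix ℂ) (f' f : Fn) :
    fm (MvPolynomial.C a * q) f' f = a * fm q f' f := by
  simp only [fm, ← integral_const_mul, evp, map_mul, MvPolynomial.eval_C, mul_assoc]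

lemma fm_sub (q r : MvPolynomial Ix ℂ) {f' f : Fn} (h' : IsTest f') (h : IsTest f) :
    fm (q - r) f' f = fm q f' f - fm r f' f := by
  rw [eq_sub_iff_add_eq, ← fm_add _ _ h' h, sub_add_cancel]

/-- derivatives in the left slot -/
lemma fm_pd_l (q : MvPolynomial Ix ℂ) (m : Ix) {f' : Fn} (h' : IsTest f') (f : Fn) :
    fm q (pd m f') f =
      Complex.I * fm (MvPolynomial.C (eta m : ℂ) * MvPolynomial.X m * q) f' f := by
  simp only [fm, ← integral_const_mul, ft_pd h', evp, map_mul, MvPolynomial.eval_C,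
    MvPolynomial.eval_X, map_neg, Complex.conj_I, Complex.conj_ofReal, Complex.ofReal_mul]
  exact integral_congr_ae (.of_forall fun p => by ring)

/-- derivatives in the right slot -/
lemma fm_pd_r (q : MvPolynomial Ix ℂ) (m : Ix) (f' : Fn) {f : Fn} (h : IsTest f) :
    fm q f' (pd m f) =
      -Complex.I * fm (MvPolynomial.C (eta m : ℂ) * MvPolynomial.X m * q) f' f := by
  simp only [fm, ← integral_const_mul, ft_pd h, evp, map_mul, MvPolynomial.eval_C,
    MvPolynomial.eval_X, Complex.ofReal_mul]
  exact integral_congr_ae (.of_forall fun p => by ring)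

end

end Vale.Agent.P352X.ZZ.Poz
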